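import Vale.Agent.P181.BL.Defs
import Vale.Agent.P181.TR.H248.Bord

set_option autoImplicit false

/-!
# P181, BL (B1): the border
-/

open MvPolynomial

namespace Vale.Agent.P181.BL.H248

open Vale.Agent.P181.TR.H248 (bord WW)

/-- **(B1)** -/
theorem bordR : BordR := by
  intro r k ι _ c tau hc
  obtain ⟨Ψ, h1, h2⟩ := bord c tau hc r
  have hW : WW r tau = ap r (fun _ => tau 0) tau := by
    funext i
    simp only [WW, ap]
    split_ifs <;> rfl
  refine ⟨Ψ, fun F => ?_, fun F v hv x => (h1 F).2 v hv x, fun F => ?_⟩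
  · rw [← hW]
    exact (h1 F).1
  · rw [h2 _ (fr (k + 1 + r) (id : Fin r → Fin r)) (fun i l => by
      rw [fr, aeval_X]
      rfl) F]
    have h3 : (aeval (fun p : Fin (k + 1) × ι => fr (k + 1 + r) (id : Fin r → Fin r)
        (X (⟨r + (p.1 : ℕ), by omega⟩, Sum.inl p.2)))) =
        rename (R := ℂ) (fun q : Fin (k + 1) × ι => (lo r q.1, q.2)) := by
      apply MvPolynomial.algHom_ext
      intro p
      rw [aeval_X, rename_X, fr, aeval_X]
      simp only [Sum.elim_inl, lo]
      congr 2
      exact Fin.ext (Nat.add_comm _ _)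
    rw [h3]

end Vale.Agent.P181.BL.H248
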